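import Mathlib

/-! P361 LRO: uniform (quantitative) Lie-Trotter. -/

namespace Vale.Agent.P361.LRO.Trot

open Filter Topology NormedSpace

section powers

variable {𝔸 : Type*} [NormedRing 𝔸]

/-- telescoping estimate for powers -/
theorem norm_pow_sub_pow_le {a b : 𝔸} {M : ℝ} (hM : 1 ≤ M) (ha : ‖a‖ ≤ M) (hb : ‖b‖ ≤ M) (m : ℕ)
    (h1 : ‖(1 : 𝔸)‖ ≤ 1) : ‖a ^ m - b ^ m‖ ≤ m * M ^ m * ‖a - b‖ := by
  have hpa : ∀ k : ℕ, ‖a ^ k‖ ≤ M ^ k := by
    intro k
    induction k with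
    | zero => simpa using h1
    | succ k ih =>
      rw [pow_succ, pow_succ]
      refine (norm_mul_le _ _).trans ?_
      gcongr
  induction m with
  | zero => simp
  | succ m ih =>
    have e : a ^ (m + 1) - b ^ (m + 1) = a ^ m * (a - b) + (a ^ m - b ^ m) * b := by
      rw [pow_succ, pow_succ]; noncomm_ring
    rw [e]
    have h2 : ‖a ^ m * (a - b)‖ ≤ M ^ m * ‖a - b‖ := by
      refine (norm_mul_le _ _).trans ?_
      gcongr
      exact hpa m
    have h3 : ‖(a ^ m - b ^ m) * b‖ ≤ (m * M ^ m * ‖a - b‖) * M := by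
      refine (norm_mul_le _ _).trans ?_
      gcongr
    have hM0 : 0 ≤ M := zero_le_one.trans hM
    calc ‖a ^ m * (a - b) + (a ^ m - b ^ m) * b‖
        ≤ M ^ m * ‖a - b‖ + (m * M ^ m * ‖a - b‖) * M := (norm_add_le _ _).trans (add_le_add h2 h3)
      _ ≤ (M ^ m * M) * ‖a - b‖ + (m * M ^ m * ‖a - b‖) * M := by
          gcongr
          exact le_mul_of_one_le_right (by positivity) hM
      _ = ((m + 1 : ℕ) : ℝ) * M ^ (m + 1) * ‖a - b‖ := by
          push_cast
          ring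

end powers

variable {𝔸 : Type*} [NormedRing 𝔸] [NormedAlgebra ℝ 𝔸] [CompleteSpace 𝔸]

omit [CompleteSpace 𝔸] in
/-- norm of the exponential -/
theorem norm_exp_le (h1 : ‖(1 : 𝔸)‖ ≤ 1) (x : 𝔸) : ‖exp x‖ ≤ Real.exp ‖x‖ := by
  have h2 : ∀ n : ℕ, ‖((n.factorial : ℝ)⁻¹) • x ^ n‖ ≤ ‖x‖ ^ n / n.factorial := by
    intro n
    rw [norm_smul, norm_inv, Real.norm_natCast, div_eq_inv_mul]
    gcongr
    rcases Nat.eq_zero_or_pos n with hn | hn
    · subst hn; simpa using h1
    · exact norm_pow_le' x hn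
  have hs : Summable fun n : ℕ => ‖x‖ ^ n / (n.factorial : ℝ) := Real.summable_pow_div_factorial _
  rw [exp_eq_tsum ℝ, Real.exp_eq_exp_ℝ, exp_eq_tsum_div]
  exact tsum_of_norm_bounded hs.hasSum h2

/-- first order remainder of the exponential -/
theorem norm_exp_sub_one_sub_le (x : 𝔸) :
    ‖exp x - 1 - x‖ ≤ Real.exp ‖x‖ - 1 - ‖x‖ := by
  have h2 : ∀ n : ℕ, ‖(((n + 2).factorial : ℝ)⁻¹) • x ^ (n + 2)‖ ≤
      ‖x‖ ^ (n + 2) / (n + 2).factorial := by
    intro n
    rw [norm_smul, norm_inv, Real.norm_natCast, div_eq_inv_mul]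
    gcongr
    exact norm_pow_le' x (by omega)
  have hs : Summable fun n : ℕ => ‖x‖ ^ n / (n.factorial : ℝ) := Real.summable_pow_div_factorial _
  have hx : Summable fun n : ℕ => ((n.factorial : ℝ)⁻¹) • x ^ n := expSeries_summable' (𝕂 := ℝ) x
  have e : exp x - 1 - x = ∑' n : ℕ, (((n + 2).factorial : ℝ)⁻¹) • x ^ (n + 2) := by
    rw [exp_eq_tsum ℝ]
    have h5 := hx.sum_add_tsum_nat_add 2
    simp only [Finset.sum_range_succ, Finset.range_zero, Finset.sum_empty, zero_add,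
      Nat.factorial_zero, Nat.cast_one, inv_one, pow_zero, one_smul, Nat.factorial_one,
      pow_one] at h5
    show (∑' n : ℕ, ((n.factorial : ℝ)⁻¹) • x ^ n) - 1 - x = _
    rw [← h5]
    abel
  have e' : Real.exp ‖x‖ - 1 - ‖x‖ = ∑' n : ℕ, ‖x‖ ^ (n + 2) / ((n + 2).factorial : ℝ) := by
    rw [Real.exp_eq_exp_ℝ, exp_eq_tsum_div]
    have h5 := hs.sum_add_tsum_nat_add 2
    simp only [Finset.sum_range_succ, Finset.range_zero, Finset.sum_empty, zero_add,
      Nat.factorial_zero, Nat.cast_one, div_one, pow_zero, Nat.factorial_one,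
      pow_one] at h5
    show (∑' n : ℕ, ‖x‖ ^ n / (n.factorial : ℝ)) - 1 - ‖x‖ = _
    rw [← h5]
    ring
  rw [e, e']
  exact tsum_of_norm_bounded ((summable_nat_add_iff 2).2 hs).hasSum h2

/-- zeroth order remainder of the exponential -/
theorem norm_exp_sub_one_le (x : 𝔸) : ‖exp x - 1‖ ≤ Real.exp ‖x‖ - 1 := by
  have h := norm_exp_sub_one_sub_le x
  have e : exp x - 1 = (exp x - 1 - x) + x := by abel
  rw [e]
  linarith [norm_add_le (exp x - 1 - x) x]

/-- (UT1) products of exponentials -/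
theorem prod_exp_bounds (h1 : ‖(1 : 𝔸)‖ ≤ 1) (l : List 𝔸) :
    ‖(l.map exp).prod‖ ≤ Real.exp (l.map norm).sum ∧
    ‖(l.map exp).prod - 1‖ ≤ Real.exp (l.map norm).sum - 1 ∧
    ‖(l.map exp).prod - 1 - l.sum‖ ≤ Real.exp (l.map norm).sum - 1 - (l.map norm).sum := by
  induction l with
  | nil => simp [h1]
  | cons A l ih =>
    obtain ⟨i1, i2, i3⟩ := ih
    set P := (l.map exp).prod with hP
    set s := (l.map norm).sum with hs
    have hs0 : 0 ≤ s := List.sum_nonneg (by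
      intro x hx
      obtain ⟨a, _, rfl⟩ := List.mem_map.1 hx
      exact norm_nonneg _)
    simp only [List.map_cons, List.prod_cons, List.sum_cons, ← hP, ← hs]
    have j1 := norm_exp_le h1 A
    have j2 := norm_exp_sub_one_le A
    have j3 := norm_exp_sub_one_sub_le A
    have hA0 : 0 ≤ Real.exp ‖A‖ - 1 := (norm_nonneg _).trans j2
    have hE0 : 0 ≤ Real.exp s - 1 := (norm_nonneg _).trans i2
    have k : ‖(exp A - 1) * (P - 1)‖ ≤ (Real.exp ‖A‖ - 1) * (Real.exp s - 1) :=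
      (norm_mul_le _ _).trans (mul_le_mul j2 i2 (norm_nonneg _) hA0)
    refine ⟨?_, ?_, ?_⟩
    · rw [Real.exp_add]
      exact (norm_mul_le _ _).trans (mul_le_mul j1 i1 (norm_nonneg _) (Real.exp_pos _).le)
    · have e : exp A * P - 1 = (exp A - 1) * (P - 1) + (exp A - 1) + (P - 1) := by noncomm_ring
      rw [e, Real.exp_add]
      refine norm_add₃_le.trans ?_
      nlinarith
    · have e : exp A * P - 1 - (A + l.sum)
          = (exp A - 1) * (P - 1) + (exp A - 1 - A) + (P - 1 - l.sum) := by noncomm_ring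
      rw [e, Real.exp_add]
      refine norm_add₃_le.trans ?_
      nlinarith

/-- `e^x - 1 - x ≤ x² e^x`. -/
theorem exp_rem_le {x : ℝ} (hx : 0 ≤ x) : Real.exp x - 1 - x ≤ x ^ 2 * Real.exp x := by
  have h0 : 1 - x ≤ Real.exp (-x) := by
    have := Real.add_one_le_exp (-x)
    linarith
  have h1 : Real.exp x - 1 ≤ x * Real.exp x := by
    have h2 : (1 - x) * Real.exp x ≤ Real.exp (-x) * Real.exp x :=
      mul_le_mul_of_nonneg_right h0 (Real.exp_pos _).le
    rw [← Real.exp_add, neg_add_cancel, Real.exp_zero] at h2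
    linarith
  have h3 : x * (Real.exp x - 1) ≤ x * (x * Real.exp x) := mul_le_mul_of_nonneg_left h1 hx
  nlinarith

omit [CompleteSpace 𝔸] [NormedAlgebra ℝ 𝔸] in
theorem norm_list_sum_le (l : List 𝔸) : ‖l.sum‖ ≤ (l.map norm).sum := by
  induction l with
  | nil => simp
  | cons A l ih =>
    rw [List.sum_cons, List.map_cons, List.sum_cons]
    exact (norm_add_le _ _).trans (add_le_add le_rfl ih)

/-- one step: the product of exponentials against the exponential of the sum -/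
theorem prod_exp_sub_exp_sum_le (h1 : ‖(1 : 𝔸)‖ ≤ 1) (l : List 𝔸) {s : ℝ}
    (hs : (l.map norm).sum ≤ s) :
    ‖(l.map exp).prod - exp l.sum‖ ≤ 2 * (s ^ 2 * Real.exp s) := by
  obtain ⟨-, -, i3⟩ := prod_exp_bounds h1 l
  have j3 := norm_exp_sub_one_sub_le l.sum
  have h0 : 0 ≤ (l.map norm).sum := List.sum_nonneg (by
      intro x hx
      obtain ⟨a, _, rfl⟩ := List.mem_map.1 hx
      exact norm_nonneg _)
  have mono : ∀ x : ℝ, 0 ≤ x → x ≤ s → Real.exp x - 1 - x ≤ s ^ 2 * Real.exp s := by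
    intro x hx hxs
    refine (exp_rem_le hx).trans ?_
    gcongr
  have e : (l.map exp).prod - exp l.sum
      = ((l.map exp).prod - 1 - l.sum) - (exp l.sum - 1 - l.sum) := by abel
  rw [e]
  refine (norm_sub_le _ _).trans ?_
  have k1 := mono _ h0 hs
  have k2 := mono _ (norm_nonneg l.sum) ((norm_list_sum_le l).trans hs)
  linarith

/-- (UT2) uniform Lie-Trotter at every intermediate slice -/
theorem trotter_uniform (h1 : ‖(1 : 𝔸)‖ ≤ 1) (l : List 𝔸) {c : ℝ}
    (hc : (l.map norm).sum ≤ c) {N k : ℕ} (hN : 1 ≤ N) (hk : k ≤ N) :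
    ‖((l.map fun A => exp ((N : ℝ)⁻¹ • A)).prod) ^ k - exp (((k : ℝ) / N) • l.sum)‖
      ≤ 2 * c ^ 2 * Real.exp (2 * c) / N := by
  have hN0 : (0 : ℝ) < N := by exact_mod_cast hN
  have h0 : 0 ≤ (l.map norm).sum := List.sum_nonneg (by
      intro x hx
      obtain ⟨a, _, rfl⟩ := List.mem_map.1 hx
      exact norm_nonneg _)
  have hc0 : 0 ≤ c := h0.trans hc
  set l' := l.map fun A => (N : ℝ)⁻¹ • A with hl'
  have hsum : l'.sum = (N : ℝ)⁻¹ • l.sum := by
    rw [hl', ← List.smul_sum]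
  have hnorm : (l'.map norm).sum ≤ c / N := by
    have e : (l'.map norm) = (l.map norm).map (fun x => (N : ℝ)⁻¹ * x) := by
      rw [hl', List.map_map, List.map_map]
      apply List.map_congr_left
      intro A _
      simp [norm_smul]
    rw [e, List.sum_map_mul_left, List.map_id', div_eq_inv_mul]
    gcongr
  have hmap : (l.map fun A => exp ((N : ℝ)⁻¹ • A)) = l'.map exp := by
    rw [hl', List.map_map]; rfl
  rw [hmap]
  have hstep := prod_exp_sub_exp_sum_le h1 l' hnorm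
  obtain ⟨i1, -, -⟩ := prod_exp_bounds h1 l'
  have hw : ‖(l'.map exp).prod‖ ≤ Real.exp (c / N) := i1.trans (Real.exp_le_exp.2 hnorm)
  have ha : ‖exp l'.sum‖ ≤ Real.exp (c / N) :=
    (norm_exp_le h1 _).trans (Real.exp_le_exp.2 ((norm_list_sum_le l').trans hnorm))
  have hM : 1 ≤ Real.exp (c / N) := Real.one_le_exp (by positivity)
  have epow : exp (((k : ℝ) / N) • l.sum) = exp l'.sum ^ k := by
    let _ : NormedAlgebra ℚ 𝔸 := NormedAlgebra.restrictScalars ℚ ℝ 𝔸
    rw [← exp_nsmul, ← Nat.cast_smul_eq_nsmul ℝ, hsum, smul_smul, div_eq_mul_inv]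
  rw [epow]
  refine (norm_pow_sub_pow_le hM hw ha k h1).trans ?_
  have e2 : Real.exp (c / N) ^ k ≤ Real.exp c := by
    rw [← Real.exp_nat_mul]
    apply Real.exp_le_exp.2
    rw [mul_div_assoc', div_le_iff₀ hN0, mul_comm c]
    gcongr
  have e3 : Real.exp (c / N) ≤ Real.exp c := by
    apply Real.exp_le_exp.2
    exact div_le_self hc0 (by exact_mod_cast hN)
  calc (k : ℝ) * Real.exp (c / N) ^ k * ‖(l'.map exp).prod - exp l'.sum‖
      ≤ (N : ℝ) * Real.exp c * (2 * ((c / N) ^ 2 * Real.exp c)) := by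
        gcongr
        refine hstep.trans ?_
        gcongr
    _ = 2 * c ^ 2 * Real.exp (2 * c) / N := by
        rw [two_mul c, Real.exp_add]
        field_simp

end Vale.Agent.P361.LRO.Trot
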