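import Vale.Agent.P361.LRO.Trot.Uniform

/-! P361 LRO: uniform Lie-Trotter for products of factors `1 + A / N`, with an inserted factor. -/

namespace Vale.Agent.P361.LRO.Trot

open Filter Topology NormedSpace

variable {𝔸 : Type*} [NormedRing 𝔸] [NormedAlgebra ℝ 𝔸]

omit [NormedAlgebra ℝ 𝔸] in
/-- products of factors `1 + A` -/
theorem prod_lin_bounds (h1 : ‖(1 : 𝔸)‖ ≤ 1) (l : List 𝔸) :
    ‖(l.map fun A => 1 + A).prod‖ ≤ Real.exp (l.map norm).sum ∧
    ‖(l.map fun A => 1 + A).prod - 1‖ ≤ Real.exp (l.map norm).sum - 1 ∧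
    ‖(l.map fun A => 1 + A).prod - 1 - l.sum‖ ≤
      Real.exp (l.map norm).sum - 1 - (l.map norm).sum := by
  induction l with
  | nil => simp [h1]
  | cons A l ih =>
    obtain ⟨i1, i2, i3⟩ := ih
    set P := (l.map fun A => 1 + A).prod with hP
    set s := (l.map norm).sum with hs
    have hs0 : 0 ≤ s := List.sum_nonneg (by
      intro x hx
      obtain ⟨a, _, rfl⟩ := List.mem_map.1 hx
      exact norm_nonneg _)
    simp only [List.map_cons, List.prod_cons, List.sum_cons, ← hP, ← hs]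
    have hA0 := norm_nonneg A
    have ja : 1 + ‖A‖ ≤ Real.exp ‖A‖ := by
      have := Real.add_one_le_exp ‖A‖
      linarith
    have j1 : ‖1 + A‖ ≤ Real.exp ‖A‖ := by
      refine (norm_add_le _ _).trans ?_
      linarith
    have hE0 : 0 ≤ Real.exp s - 1 := (norm_nonneg _).trans i2
    have k : ‖A * (P - 1)‖ ≤ ‖A‖ * (Real.exp s - 1) :=
      (norm_mul_le _ _).trans (mul_le_mul_of_nonneg_left i2 hA0)
    have k2 : ‖A‖ * (Real.exp s - 1) ≤ (Real.exp ‖A‖ - 1) * (Real.exp s - 1) :=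
      mul_le_mul_of_nonneg_right (by linarith) hE0
    refine ⟨?_, ?_, ?_⟩
    · rw [Real.exp_add]
      exact (norm_mul_le _ _).trans (mul_le_mul j1 i1 (norm_nonneg _) (Real.exp_pos _).le)
    · have e : (1 + A) * P - 1 = A * (P - 1) + A + (P - 1) := by noncomm_ring
      rw [e, Real.exp_add]
      refine norm_add₃_le.trans ?_
      nlinarith
    · have e : (1 + A) * P - 1 - (A + l.sum) = A * (P - 1) + (P - 1 - l.sum) := by noncomm_ring
      rw [e, Real.exp_add]
      refine (norm_add_le _ _).trans ?_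
      nlinarith

variable [CompleteSpace 𝔸]

omit [CompleteSpace 𝔸] in
/-- The exponential of `t S`. -/
theorem norm_exp_smul_le (h1 : ‖(1 : 𝔸)‖ ≤ 1) {S : 𝔸} {c t : ℝ} (hS : ‖S‖ ≤ c) (ht : 0 ≤ t)
    (ht1 : t ≤ 1) : ‖exp (t • S)‖ ≤ Real.exp c := by
  refine (norm_exp_le h1 _).trans (Real.exp_le_exp.2 ?_)
  rw [norm_smul, Real.norm_of_nonneg ht]
  have h0 := norm_nonneg S
  nlinarith

/-- Continuity of the exponential in `t`. -/
theorem norm_exp_smul_sub_le (h1 : ‖(1 : 𝔸)‖ ≤ 1) {S : 𝔸} {c t d : ℝ} (hS : ‖S‖ ≤ c) (ht : 0 ≤ t)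
    (ht1 : t ≤ 1) (hd : 0 ≤ d) (hd1 : d ≤ 1) :
    ‖exp ((t + d) • S) - exp (t • S)‖ ≤ d * (c * Real.exp (2 * c)) := by
  have hc : 0 ≤ c := (norm_nonneg S).trans hS
  have e : exp ((t + d) • S) = exp (t • S) * exp (d • S) := by
    let _ : NormedAlgebra ℚ 𝔸 := NormedAlgebra.restrictScalars ℚ ℝ 𝔸
    rw [add_smul]
    exact exp_add_of_commute (Commute.smul_left (Commute.smul_right (Commute.refl S) d) t)
  have e2 : exp ((t + d) • S) - exp (t • S) = exp (t • S) * (exp (d • S) - 1) := by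
    rw [e, mul_sub, mul_one]
  rw [e2]
  refine (norm_mul_le _ _).trans ?_
  have h2 := norm_exp_smul_le h1 hS ht ht1
  have h3 : ‖exp (d • S) - 1‖ ≤ d * (c * Real.exp c) := by
    refine (norm_exp_sub_one_le _).trans ?_
    have h4 : ‖d • S‖ ≤ d * c := by
      rw [norm_smul, Real.norm_of_nonneg hd]
      exact mul_le_mul_of_nonneg_left hS hd
    have h5 : Real.exp ‖d • S‖ ≤ Real.exp (d * c) := Real.exp_le_exp.2 h4
    have h6 : Real.exp (d * c) - 1 ≤ d * c * Real.exp (d * c) := by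
      have h7 := Real.add_one_le_exp (-(d * c))
      have h8 : (1 - d * c) * Real.exp (d * c) ≤ Real.exp (-(d * c)) * Real.exp (d * c) :=
        mul_le_mul_of_nonneg_right (by linarith) (Real.exp_pos _).le
      rw [← Real.exp_add, neg_add_cancel, Real.exp_zero] at h8
      linarith
    have h9 : Real.exp (d * c) ≤ Real.exp c := Real.exp_le_exp.2 (by nlinarith)
    have h10 : d * c * Real.exp (d * c) ≤ d * c * Real.exp c :=
      mul_le_mul_of_nonneg_left h9 (mul_nonneg hd hc)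
    linarith
  calc ‖exp (t • S)‖ * ‖exp (d • S) - 1‖ ≤ Real.exp c * (d * (c * Real.exp c)) :=
        mul_le_mul h2 h3 (norm_nonneg _) (Real.exp_pos _).le
    _ = d * (c * Real.exp (2 * c)) := by rw [two_mul, Real.exp_add]; ring

/-- Uniform Lie-Trotter at every intermediate slice, for factors `1 + A / N`. -/
theorem trotter_lin (h1 : ‖(1 : 𝔸)‖ ≤ 1) (l : List 𝔸) {c : ℝ}
    (hc : (l.map norm).sum ≤ c) {N k : ℕ} (hN : 1 ≤ N) (hk : k ≤ N) :
    ‖((l.map fun A => 1 + (N : ℝ)⁻¹ • A).prod) ^ k - exp (((k : ℝ) / N) • l.sum)‖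
      ≤ 2 * c ^ 2 * Real.exp (2 * c) / N ∧
    ‖((l.map fun A => 1 + (N : ℝ)⁻¹ • A).prod) ^ k‖ ≤ Real.exp c := by
  have hN0 : (0 : ℝ) < N := by exact_mod_cast hN
  have h0 : 0 ≤ (l.map norm).sum := List.sum_nonneg (by
      intro x hx
      obtain ⟨a, _, rfl⟩ := List.mem_map.1 hx
      exact norm_nonneg _)
  have hc0 : 0 ≤ c := h0.trans hc
  set l' := l.map fun A => (N : ℝ)⁻¹ • A with hl'
  have hsum : l'.sum = (N : ℝ)⁻¹ • l.sum := by
    rw [hl', ← List.smul_sum]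
  have hnorm : (l'.map norm).sum ≤ c / N := by
    have e : (l'.map norm) = (l.map norm).map (fun x => (N : ℝ)⁻¹ * x) := by
      rw [hl', List.map_map, List.map_map]
      apply List.map_congr_left
      intro A _
      simp [norm_smul]
    rw [e, List.sum_map_mul_left, List.map_id', div_eq_inv_mul]
    gcongr
  have hmap : (l.map fun A => 1 + (N : ℝ)⁻¹ • A) = l'.map fun A => 1 + A := by
    rw [hl', List.map_map]; rfl
  rw [hmap]
  obtain ⟨i1, -, i3⟩ := prod_lin_bounds h1 l'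
  have h0' : 0 ≤ (l'.map norm).sum := List.sum_nonneg (by
      intro x hx
      obtain ⟨a, _, rfl⟩ := List.mem_map.1 hx
      exact norm_nonneg _)
  have mono : ∀ x : ℝ, 0 ≤ x → x ≤ c / N →
      Real.exp x - 1 - x ≤ (c / N) ^ 2 * Real.exp (c / N) := by
    intro x hx hxs
    refine (exp_rem_le hx).trans ?_
    gcongr
  have hstep : ‖(l'.map fun A => 1 + A).prod - exp l'.sum‖ ≤
      2 * ((c / N) ^ 2 * Real.exp (c / N)) := by
    have j3 := norm_exp_sub_one_sub_le l'.sum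
    have e : (l'.map fun A => 1 + A).prod - exp l'.sum
        = ((l'.map fun A => 1 + A).prod - 1 - l'.sum) - (exp l'.sum - 1 - l'.sum) := by abel
    rw [e]
    refine (norm_sub_le _ _).trans ?_
    have k1 := mono _ h0' hnorm
    have k2 := mono _ (norm_nonneg l'.sum) ((norm_list_sum_le l').trans hnorm)
    linarith
  have hw : ‖(l'.map fun A => 1 + A).prod‖ ≤ Real.exp (c / N) :=
    i1.trans (Real.exp_le_exp.2 hnorm)
  have ha : ‖exp l'.sum‖ ≤ Real.exp (c / N) :=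
    (norm_exp_le h1 _).trans (Real.exp_le_exp.2 ((norm_list_sum_le l').trans hnorm))
  have hM : 1 ≤ Real.exp (c / N) := Real.one_le_exp (by positivity)
  have epow : exp (((k : ℝ) / N) • l.sum) = exp l'.sum ^ k := by
    let _ : NormedAlgebra ℚ 𝔸 := NormedAlgebra.restrictScalars ℚ ℝ 𝔸
    rw [← exp_nsmul, ← Nat.cast_smul_eq_nsmul ℝ, hsum, smul_smul, div_eq_mul_inv]
  have e2 : Real.exp (c / N) ^ k ≤ Real.exp c := by
    rw [← Real.exp_nat_mul]
    apply Real.exp_le_exp.2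
    rw [mul_div_assoc', div_le_iff₀ hN0, mul_comm c]
    gcongr
  have e3 : Real.exp (c / N) ≤ Real.exp c := by
    apply Real.exp_le_exp.2
    exact div_le_self hc0 (by exact_mod_cast hN)
  refine ⟨?_, ?_⟩
  · rw [epow]
    refine (norm_pow_sub_pow_le hM hw ha k h1).trans ?_
    calc (k : ℝ) * Real.exp (c / N) ^ k * ‖(l'.map fun A => 1 + A).prod - exp l'.sum‖
        ≤ (N : ℝ) * Real.exp c * (2 * ((c / N) ^ 2 * Real.exp c)) := by
          gcongr
          refine hstep.trans ?_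
          gcongr
      _ = 2 * c ^ 2 * Real.exp (2 * c) / N := by
          rw [two_mul c, Real.exp_add]
          field_simp
  · refine le_trans ?_ e2
    rcases Nat.eq_zero_or_pos k with hk0 | hk0
    · subst hk0
      simpa using h1
    · exact (norm_pow_le' _ hk0).trans (pow_le_pow_left₀ (norm_nonneg _) hw k)

/-- The constant of `insert_lin`. -/
noncomputable def cI (c C : ℝ) : ℝ :=
  (2 * c ^ 2 * Real.exp (2 * c)) * (1 + C) * Real.exp c + Real.exp c * C * Real.exp c +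
    Real.exp c * (2 * c ^ 2 * Real.exp (2 * c) + c * Real.exp (2 * c))

/-- An inserted factor. -/
theorem insert_lin (h1 : ‖(1 : 𝔸)‖ ≤ 1) (l : List 𝔸) {c C : ℝ}
    (hc : (l.map norm).sum ≤ c) (hC : 0 ≤ C) {N k : ℕ} (hk : 1 ≤ k) (hkN : k ≤ N) {M O : 𝔸}
    (hO : ‖O‖ ≤ 1) (hM : ‖M - O‖ ≤ C / N) :
    ‖((l.map fun A => 1 + (N : ℝ)⁻¹ • A).prod) ^ (N - k) * M *
        ((l.map fun A => 1 + (N : ℝ)⁻¹ • A).prod) ^ (k - 1) -
      exp ((1 - (k : ℝ) / N) • l.sum) * O * exp (((k : ℝ) / N) • l.sum)‖ ≤ cI c C / N := by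
  have hN : 1 ≤ N := hk.trans hkN
  have hN0 : (0 : ℝ) < N := by exact_mod_cast hN
  have hN1 : (1 : ℝ) ≤ N := by exact_mod_cast hN
  have h0 : 0 ≤ (l.map norm).sum := List.sum_nonneg (by
      intro x hx
      obtain ⟨a, _, rfl⟩ := List.mem_map.1 hx
      exact norm_nonneg _)
  have hc0 : 0 ≤ c := h0.trans hc
  have hS : ‖l.sum‖ ≤ c := (norm_list_sum_le l).trans hc
  obtain ⟨a1, -⟩ := trotter_lin h1 l hc hN (show N - k ≤ N by omega)
  obtain ⟨b1, b2⟩ := trotter_lin h1 l hc hN (show k - 1 ≤ N by omega)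
  have ec1 : (((N - k : ℕ) : ℝ) / N) = 1 - (k : ℝ) / N := by
    rw [Nat.cast_sub hkN]
    field_simp
  rw [ec1] at a1
  set P := ((l.map fun A => 1 + (N : ℝ)⁻¹ • A).prod) with hP
  set E1 := exp ((1 - (k : ℝ) / N) • l.sum) with hE1
  set E2 := exp (((k : ℝ) / N) • l.sum) with hE2
  have hkN' : (k : ℝ) ≤ N := by exact_mod_cast hkN
  have hk' : (1 : ℝ) ≤ k := by exact_mod_cast hk
  have hd : (k : ℝ) / N ≤ 1 := (div_le_one hN0).2 hkN'
  have hd0 : 0 ≤ (k : ℝ) / N := by positivity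
  have n1 : ‖E1‖ ≤ Real.exp c := norm_exp_smul_le h1 hS (by linarith) (by linarith)
  have hMn : ‖M‖ ≤ 1 + C := by
    have e : M = O + (M - O) := by abel
    have h2 : C / N ≤ C := div_le_self hC hN1
    calc ‖M‖ = ‖O + (M - O)‖ := by rw [← e]
      _ ≤ ‖O‖ + ‖M - O‖ := norm_add_le _ _
      _ ≤ 1 + C := by linarith
  have b3 : ‖P ^ (k - 1) - E2‖ ≤ (2 * c ^ 2 * Real.exp (2 * c) + c * Real.exp (2 * c)) / N := by
    have ec2 : (((k - 1 : ℕ) : ℝ) / N) + 1 / N = (k : ℝ) / N := by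
      rw [Nat.cast_sub hk]
      push_cast
      field_simp
      ring
    have hd1 : (1 : ℝ) / N ≤ 1 := (div_le_one hN0).2 hN1
    have hd10 : (0 : ℝ) ≤ 1 / N := by positivity
    have hd2 : 0 ≤ (((k - 1 : ℕ) : ℝ) / N) := by positivity
    have h3 := norm_exp_smul_sub_le h1 (t := (((k - 1 : ℕ) : ℝ) / N)) (d := 1 / N) hS hd2
      (by linarith) hd10 hd1
    rw [ec2] at h3
    have e : P ^ (k - 1) - E2 = (P ^ (k - 1) - exp ((((k - 1 : ℕ) : ℝ) / N) • l.sum)) -
        (E2 - exp ((((k - 1 : ℕ) : ℝ) / N) • l.sum)) := by abel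
    rw [e]
    refine (norm_sub_le _ _).trans ?_
    refine (add_le_add b1 h3).trans (le_of_eq ?_)
    field_simp
  have e : P ^ (N - k) * M * P ^ (k - 1) - E1 * O * E2 =
      (P ^ (N - k) - E1) * M * P ^ (k - 1) + E1 * (M - O) * P ^ (k - 1) +
        E1 * O * (P ^ (k - 1) - E2) := by noncomm_ring
  rw [e]
  refine norm_add₃_le.trans ?_
  have t1 : ‖(P ^ (N - k) - E1) * M * P ^ (k - 1)‖ ≤
      (2 * c ^ 2 * Real.exp (2 * c) / N) * (1 + C) * Real.exp c := by
    refine (norm_mul_le _ _).trans (mul_le_mul ?_ b2 (norm_nonneg _) (by positivity))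
    exact (norm_mul_le _ _).trans (mul_le_mul a1 hMn (norm_nonneg _) (by positivity))
  have t2 : ‖E1 * (M - O) * P ^ (k - 1)‖ ≤ Real.exp c * (C / N) * Real.exp c := by
    refine (norm_mul_le _ _).trans (mul_le_mul ?_ b2 (norm_nonneg _) (by positivity))
    exact (norm_mul_le _ _).trans (mul_le_mul n1 hM (norm_nonneg _) (by positivity))
  have t3 : ‖E1 * O * (P ^ (k - 1) - E2)‖ ≤
      Real.exp c * 1 * ((2 * c ^ 2 * Real.exp (2 * c) + c * Real.exp (2 * c)) / N) := by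
    refine (norm_mul_le _ _).trans (mul_le_mul ?_ b3 (norm_nonneg _) (by positivity))
    exact (norm_mul_le _ _).trans (mul_le_mul n1 hO (norm_nonneg _) (by positivity))
  refine (add_le_add (add_le_add t1 t2) t3).trans (le_of_eq ?_)
  unfold cI
  field_simp

end Vale.Agent.P361.LRO.Trot
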