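import Vale.Agent.P361.LRO.Trot.Uniform

/-! P361 LRO: uniform (quantitative) product formula for factors `1 + A / N`. -/

namespace Vale.Agent.P361.LRO.Trot

open Filter Topology NormedSpace

variable {𝔸 : Type*} [NormedRing 𝔸] [NormedAlgebra ℝ 𝔸] [CompleteSpace 𝔸]

omit [NormedAlgebra ℝ 𝔸] [CompleteSpace 𝔸] in
theorem list_norm_sum_nonneg (l : List 𝔸) : 0 ≤ (l.map norm).sum := List.sum_nonneg (by
      intro x hx
      obtain ⟨a, _, rfl⟩ := List.mem_map.1 hx
      exact norm_nonneg _)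

omit [NormedAlgebra ℝ 𝔸] [CompleteSpace 𝔸] in
/-- products of `1 + A` -/
theorem prod_one_add_bounds (h1 : ‖(1 : 𝔸)‖ ≤ 1) (l : List 𝔸) :
    ‖(l.map fun A => 1 + A).prod‖ ≤ Real.exp (l.map norm).sum ∧
    ‖(l.map fun A => 1 + A).prod - 1‖ ≤ Real.exp (l.map norm).sum - 1 ∧
    ‖(l.map fun A => 1 + A).prod - 1 - l.sum‖ ≤
      Real.exp (l.map norm).sum - 1 - (l.map norm).sum := by
  induction l with
  | nil => simp [h1]
  | cons A l ih =>
    obtain ⟨i1, i2, i3⟩ := ih
    have hs0 := list_norm_sum_nonneg l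
    set P := (l.map fun A => 1 + A).prod with hP
    set s := (l.map norm).sum with hs
    simp only [List.map_cons, List.prod_cons, List.sum_cons, ← hP, ← hs]
    have hA : 1 + ‖A‖ ≤ Real.exp ‖A‖ := by
      have := Real.add_one_le_exp ‖A‖
      linarith
    have hn := norm_nonneg A
    have k0 : ‖A * P‖ ≤ ‖A‖ * Real.exp s :=
      (norm_mul_le _ _).trans (mul_le_mul_of_nonneg_left i1 hn)
    have k : ‖A * (P - 1)‖ ≤ ‖A‖ * (Real.exp s - 1) :=
      (norm_mul_le _ _).trans (mul_le_mul_of_nonneg_left i2 hn)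
    have hm : (1 + ‖A‖) * Real.exp s ≤ Real.exp ‖A‖ * Real.exp s :=
      mul_le_mul_of_nonneg_right hA (Real.exp_pos _).le
    refine ⟨?_, ?_, ?_⟩
    · have e : (1 + A) * P = P + A * P := by noncomm_ring
      rw [e, Real.exp_add]
      refine (norm_add_le _ _).trans ?_
      nlinarith
    · have e : (1 + A) * P - 1 = (P - 1) + A * P := by noncomm_ring
      rw [e, Real.exp_add]
      refine (norm_add_le _ _).trans ?_
      nlinarith
    · have e : (1 + A) * P - 1 - (A + l.sum) = (P - 1 - l.sum) + A * (P - 1) := by noncomm_ring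
      rw [e, Real.exp_add]
      refine (norm_add_le _ _).trans ?_
      nlinarith

/-- one step: the product of `1 + A` against the exponential of the sum -/
theorem prod_one_add_sub_exp_sum_le (h1 : ‖(1 : 𝔸)‖ ≤ 1) (l : List 𝔸) {s : ℝ}
    (hs : (l.map norm).sum ≤ s) :
    ‖(l.map fun A => 1 + A).prod - exp l.sum‖ ≤ 2 * (s ^ 2 * Real.exp s) := by
  obtain ⟨-, -, i3⟩ := prod_one_add_bounds h1 l
  have j3 := norm_exp_sub_one_sub_le l.sum
  have h0 : 0 ≤ (l.map norm).sum := list_norm_sum_nonneg l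
  have mono : ∀ x : ℝ, 0 ≤ x → x ≤ s → Real.exp x - 1 - x ≤ s ^ 2 * Real.exp s := by
    intro x hx hxs
    refine (exp_rem_le hx).trans ?_
    gcongr
  have e : (l.map fun A => 1 + A).prod - exp l.sum
      = ((l.map fun A => 1 + A).prod - 1 - l.sum) - (exp l.sum - 1 - l.sum) := by abel
  rw [e]
  refine (norm_sub_le _ _).trans ?_
  have k1 := mono _ h0 hs
  have k2 := mono _ (norm_nonneg l.sum) ((norm_list_sum_le l).trans hs)
  linarith

/-- uniform Lie-Trotter at every intermediate slice, with linear factors -/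
theorem trotter_linear (h1 : ‖(1 : 𝔸)‖ ≤ 1) (l : List 𝔸) {c : ℝ}
    (hc : (l.map norm).sum ≤ c) {N k : ℕ} (hN : 1 ≤ N) (hk : k ≤ N) :
    ‖((l.map fun A => 1 + (N : ℝ)⁻¹ • A).prod) ^ k - exp (((k : ℝ) / N) • l.sum)‖
      ≤ 2 * c ^ 2 * Real.exp (2 * c) / N := by
  have hN0 : (0 : ℝ) < N := by exact_mod_cast hN
  have h0 : 0 ≤ (l.map norm).sum := list_norm_sum_nonneg l
  have hc0 : 0 ≤ c := h0.trans hc
  set l' := l.map fun A => (N : ℝ)⁻¹ • A with hl'
  have hsum : l'.sum = (N : ℝ)⁻¹ • l.sum := by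
    rw [hl', ← List.smul_sum]
  have hnorm : (l'.map norm).sum ≤ c / N := by
    have e : (l'.map norm) = (l.map norm).map (fun x => (N : ℝ)⁻¹ * x) := by
      rw [hl', List.map_map, List.map_map]
      apply List.map_congr_left
      intro A _
      simp [norm_smul]
    rw [e, List.sum_map_mul_left, List.map_id', div_eq_inv_mul]
    gcongr
  have hmap : (l.map fun A => 1 + (N : ℝ)⁻¹ • A) = l'.map fun A => 1 + A := by
    rw [hl', List.map_map]; rfl
  rw [hmap]
  have hstep := prod_one_add_sub_exp_sum_le h1 l' hnorm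
  obtain ⟨i1, -, -⟩ := prod_one_add_bounds h1 l'
  have hw : ‖(l'.map fun A => 1 + A).prod‖ ≤ Real.exp (c / N) :=
    i1.trans (Real.exp_le_exp.2 hnorm)
  have ha : ‖exp l'.sum‖ ≤ Real.exp (c / N) :=
    (norm_exp_le h1 _).trans (Real.exp_le_exp.2 ((norm_list_sum_le l').trans hnorm))
  have hM : 1 ≤ Real.exp (c / N) := Real.one_le_exp (by positivity)
  have epow : exp (((k : ℝ) / N) • l.sum) = exp l'.sum ^ k := by
    let _ : NormedAlgebra ℚ 𝔸 := NormedAlgebra.restrictScalars ℚ ℝ 𝔸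
    rw [← exp_nsmul, ← Nat.cast_smul_eq_nsmul ℝ, hsum, smul_smul, div_eq_mul_inv]
  rw [epow]
  refine (norm_pow_sub_pow_le hM hw ha k h1).trans ?_
  have e2 : Real.exp (c / N) ^ k ≤ Real.exp c := by
    rw [← Real.exp_nat_mul]
    apply Real.exp_le_exp.2
    rw [mul_div_assoc', div_le_iff₀ hN0, mul_comm c]
    gcongr
  have e3 : Real.exp (c / N) ≤ Real.exp c := by
    apply Real.exp_le_exp.2
    exact div_le_self hc0 (by exact_mod_cast hN)
  calc (k : ℝ) * Real.exp (c / N) ^ k * ‖(l'.map fun A => 1 + A).prod - exp l'.sum‖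
      ≤ (N : ℝ) * Real.exp c * (2 * ((c / N) ^ 2 * Real.exp c)) := by
        gcongr
        refine hstep.trans ?_
        gcongr
    _ = 2 * c ^ 2 * Real.exp (2 * c) / N := by
        rw [two_mul c, Real.exp_add]
        field_simp

end Vale.Agent.P361.LRO.Trot
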